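import Mathlib.Data.Finset.Card
import Mathlib.Data.Finset.Powerset
import Mathlib.Data.Fintype.Basic
import Mathlib.Data.Fintype.Prod
import Mathlib.Data.Fintype.Pi
import Mathlib.Data.Fintype.Powerset
import Mathlib.Combinatorics.Hall.Basic
import Mathlib.Algebra.BigOperators.Ring.Finset
import Mathlib.Algebra.Order.BigOperators.Group.Finset
import Mathlib.Tactic

/-!
# Closed neighbourhoods of sets and the inequality (G) in a counterexample with fewest arcs

`R` is the reflexive arc relation of an oriented graph: reflexive and antisymmetric.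
-/

namespace Vale.Agent.P038.H420

open Finset

variable {V : Type*} [Fintype V] [DecidableEq V]

open Classical in
/-- The closed out-neighbourhood of a set. -/
noncomputable def nb (R : V → V → Prop) (S : Finset V) : Finset V :=
  univ.filter (fun y => ∃ x ∈ S, R x y)

omit [DecidableEq V] in
theorem mem_nb {R : V → V → Prop} {S : Finset V} {y : V} :
    y ∈ nb R S ↔ ∃ x ∈ S, R x y := by
  classical
  simp [nb]

omit [DecidableEq V] in
theorem mem_nb_single {R : V → V → Prop} {a y : V} : y ∈ nb R {a} ↔ R a y := by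
  simp [mem_nb]

omit [DecidableEq V] in
theorem subset_nb {R : V → V → Prop} (hr : ∀ a, R a a) (S : Finset V) : S ⊆ nb R S :=
  fun x hx => mem_nb.2 ⟨x, hx, hr x⟩

omit [DecidableEq V] in
theorem nb_mono {R : V → V → Prop} {S T : Finset V} (h : S ⊆ T) : nb R S ⊆ nb R T := by
  intro y hy
  obtain ⟨x, hx, hxy⟩ := mem_nb.1 hy
  exact mem_nb.2 ⟨x, h hx, hxy⟩

theorem nb_union {R : V → V → Prop} (S T : Finset V) :
    nb R (S ∪ T) = nb R S ∪ nb R T := by
  ext y
  simp only [mem_nb, mem_union]
  constructor
  · rintro ⟨x, hx | hx, h⟩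
    · exact Or.inl ⟨x, hx, h⟩
    · exact Or.inr ⟨x, hx, h⟩
  · rintro (⟨x, hx, h⟩ | ⟨x, hx, h⟩)
    · exact ⟨x, Or.inl hx, h⟩
    · exact ⟨x, Or.inr hx, h⟩

omit [DecidableEq V] in
theorem nb_empty {R : V → V → Prop} : nb R (∅ : Finset V) = ∅ := by
  ext y
  simp [mem_nb]

/-- `c S = |N[S]| - |S|`. -/
noncomputable def c (R : V → V → Prop) (S : Finset V) : ℤ := (nb R S).card - S.card

theorem c_submod {R : V → V → Prop} (S T : Finset V) :
    c R (S ∪ T) + c R (S ∩ T) ≤ c R S + c R T := by
  have h1 : (S ∪ T).card + (S ∩ T).card = S.card + T.card := card_union_add_card_inter S T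
  have h2 : (nb R S ∪ nb R T).card + (nb R S ∩ nb R T).card
      = (nb R S).card + (nb R T).card := card_union_add_card_inter _ _
  have h3 : (nb R (S ∩ T)).card ≤ (nb R S ∩ nb R T).card :=
    card_le_card (subset_inter (nb_mono inter_subset_left) (nb_mono inter_subset_right))
  rw [← nb_union] at h2
  unfold c
  omega

omit [DecidableEq V] in
theorem c_nonneg {R : V → V → Prop} (hr : ∀ a, R a a) (S : Finset V) : 0 ≤ c R S := by
  have := card_le_card (subset_nb hr S)
  unfold c
  omega

theorem c_eq_card {R : V → V → Prop} (hr : ∀ a, R a a) (S : Finset V) :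
    c R S = ((nb R S \ S).card : ℤ) := by
  have h := card_sdiff_add_card_eq_card (subset_nb hr S)
  unfold c
  omega

open Classical in
/-- The number of pairs of the relation. -/
noncomputable def np (R : V → V → Prop) : ℕ :=
  (univ.filter (fun p : V × V => R p.1 p.2)).card

/-- In a counterexample with fewest arcs, the second layer of every set which is not closed is
smaller than its first layer. -/
theorem strictG {R : V → V → Prop} (hr : ∀ a, R a a) (has : ∀ a b, R a b → R b a → a = b)
    (hce : ∀ v, c R (nb R {v}) < c R {v})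
    (hmin : ∀ R' : V → V → Prop, (∀ a, R' a a) → (∀ a b, R' a b → R' b a → a = b) →
      (∀ v, c R' (nb R' {v}) < c R' {v}) → np R ≤ np R')
    (X : Finset V) (hX : nb R X ≠ X) : c R (nb R X) < c R X := by
  classical
  by_contra hcon
  push Not at hcon
  obtain ⟨L, hL⟩ : ∃ L, L = nb R X \ X := ⟨_, rfl⟩
  have hXs : X ⊆ nb R X := subset_nb hr X
  have hXL : nb R X = X ∪ L := by rw [hL, union_sdiff_of_subset hXs]
  have hdis : Disjoint X L := by rw [hL]; exact disjoint_sdiff
  have hLne : L.Nonempty := by
    rw [Finset.nonempty_iff_ne_empty]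
    intro h0
    apply hX
    rw [hXL, h0, union_empty]
  obtain ⟨T, hT, hTmin⟩ := Finset.exists_min_image L.ssubsets
    (fun T => ((nb R T \ X).card : ℤ) - 2 * T.card)
    ⟨∅, by rw [mem_ssubsets]; exact empty_ssubset.2 hLne⟩
  rw [mem_ssubsets] at hT
  have hTL : T ⊆ L := hT.subset
  have hdL : (0 : ℤ) ≤ ((nb R L \ X).card : ℤ) - 2 * L.card := by
    have e1 : nb R (nb R X) = X ∪ (nb R L \ X) := by
      rw [hXL, nb_union, hXL, union_sdiff_self_eq_union, union_assoc,
        union_eq_right.2 (subset_nb hr L)]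
    have e2 : (nb R (nb R X)).card = X.card + (nb R L \ X).card := by
      rw [e1, card_union_of_disjoint disjoint_sdiff]
    have e3 : (nb R X).card = X.card + L.card := by
      rw [hXL, card_union_of_disjoint hdis]
    unfold c at hcon
    omega
  have hTall : ∀ T' ⊆ L, ((nb R T \ X).card : ℤ) - 2 * T.card
      ≤ ((nb R T' \ X).card : ℤ) - 2 * T'.card := by
    intro T' hT'
    by_cases h : T' = L
    · have h0 := hTmin ∅ (by rw [mem_ssubsets]; exact empty_ssubset.2 hLne)
      simp only [nb_empty, empty_sdiff, card_empty, Nat.cast_zero, mul_zero, sub_zero] at h0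
      rw [h]
      omega
    · exact hTmin T' (by rw [mem_ssubsets]; exact Finset.ssubset_iff_subset_ne.2 ⟨hT', h⟩)
  -- expansion outside `T`
  have hexp : ∀ D ⊆ L \ T, 2 * D.card ≤ (nb R D \ (nb R T ∪ X)).card := by
    intro D hD
    have hDL : D ⊆ L := hD.trans sdiff_subset
    have hTD : Disjoint T D := by
      rw [disjoint_right]
      intro x hx
      exact (mem_sdiff.1 (hD hx)).2
    have h1 := hTall (T ∪ D) (union_subset hTL hDL)
    have e1 : nb R (T ∪ D) \ X = (nb R T \ X) ∪ (nb R D \ (nb R T ∪ X)) := by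
      rw [nb_union]
      ext y
      simp only [mem_sdiff, mem_union]
      tauto
    have e2 : Disjoint (nb R T \ X) (nb R D \ (nb R T ∪ X)) := by
      rw [disjoint_left]
      intro y hy hy'
      simp only [mem_sdiff, mem_union] at hy hy'
      tauto
    rw [e1, card_union_of_disjoint e2, card_union_of_disjoint hTD] at h1
    push_cast at h1
    omega
  -- delete the arcs from `X` to `L \ T`
  obtain ⟨R', hR'⟩ : ∃ R' : V → V → Prop, R' = fun x y => R x y ∧ ¬ (x ∈ X ∧ y ∈ L \ T) :=
    ⟨_, rfl⟩
  have hsub : ∀ a b, R' a b → R a b := by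
    intro a b h
    rw [hR'] at h
    exact h.1
  have hr' : ∀ a, R' a a := by
    intro a
    rw [hR']
    refine ⟨hr a, ?_⟩
    rintro ⟨h1, h2⟩
    exact (disjoint_left.1 hdis) h1 (mem_sdiff.1 h2).1
  have has' : ∀ a b, R' a b → R' b a → a = b := fun a b h h' => has a b (hsub _ _ h) (hsub _ _ h')
  have hnbsub : ∀ S : Finset V, nb R' S ⊆ nb R S := by
    intro S y hy
    obtain ⟨x, hx, h⟩ := mem_nb.1 hy
    exact mem_nb.2 ⟨x, hx, hsub _ _ h⟩
  have hce' : ∀ v, c R' (nb R' {v}) < c R' {v} := by
    intro v
    have hv := hce v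
    by_cases hvX : v ∈ X
    · obtain ⟨D, hD⟩ : ∃ D, D = nb R {v} ∩ (L \ T) := ⟨_, rfl⟩
      have hDs : D ⊆ L \ T := by rw [hD]; exact inter_subset_right
      have e1 : nb R' {v} = nb R {v} \ D := by
        ext y
        rw [mem_sdiff, hD, mem_inter, mem_nb_single, mem_nb_single, hR']
        constructor
        · rintro ⟨h1, h2⟩
          exact ⟨h1, fun h => h2 ⟨hvX, h.2⟩⟩
        · rintro ⟨h1, h2⟩
          exact ⟨h1, fun h => h2 ⟨h1, h.2⟩⟩
      have hDn : D ⊆ nb R {v} := by rw [hD]; exact inter_subset_left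
      have c1 : (nb R' {v}).card + D.card = (nb R {v}).card := by
        rw [e1]
        exact card_sdiff_add_card_eq_card hDn
      have s1 : nb R' (nb R' {v}) ⊆ X ∪ nb R T := by
        intro z hz
        obtain ⟨u, hu, huz⟩ := mem_nb.1 hz
        have hu1 : R' v u := mem_nb_single.1 hu
        rw [hR'] at hu1 huz
        have hu2 : u ∈ nb R X := mem_nb.2 ⟨v, hvX, hu1.1⟩
        rw [hXL, mem_union] at hu2
        rw [mem_union]
        have key : u ∈ X ∨ u ∈ T := by
          rcases hu2 with h | h
          · exact Or.inl h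
          · right
            by_contra hc
            exact hu1.2 ⟨hvX, mem_sdiff.2 ⟨h, hc⟩⟩
        rcases key with h | h
        · have hz2 : z ∈ nb R X := mem_nb.2 ⟨u, h, huz.1⟩
          rw [hXL, mem_union] at hz2
          rcases hz2 with h' | h'
          · exact Or.inl h'
          · right
            apply subset_nb hr T
            by_contra hc
            exact huz.2 ⟨h, mem_sdiff.2 ⟨h', hc⟩⟩
        · right
          exact mem_nb.2 ⟨u, h, huz.1⟩
      have s2 : nb R' (nb R' {v}) ⊆ nb R (nb R {v}) :=
        (hnbsub _).trans (nb_mono (hnbsub _))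
      have s3 : nb R D \ (nb R T ∪ X) ⊆ nb R (nb R {v}) :=
        sdiff_subset.trans (nb_mono hDn)
      have s4 : Disjoint (nb R' (nb R' {v})) (nb R D \ (nb R T ∪ X)) := by
        rw [disjoint_left]
        intro y hy hy'
        have h1 := s1 hy
        simp only [mem_sdiff, mem_union] at h1 hy'
        tauto
      have s5 : (nb R' (nb R' {v})).card + (nb R D \ (nb R T ∪ X)).card
          ≤ (nb R (nb R {v})).card := by
        rw [← card_union_of_disjoint s4]
        exact card_le_card (union_subset s2 s3)
      have s6 := hexp D hDs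
      unfold c at hv ⊢
      simp only [card_singleton] at hv ⊢
      omega
    · have e1 : nb R' {v} = nb R {v} := by
        ext y
        rw [mem_nb_single, mem_nb_single, hR']
        exact ⟨fun h => h.1, fun h => ⟨h, fun h' => hvX h'.1⟩⟩
      have s1 : (nb R' (nb R' {v})).card ≤ (nb R (nb R {v})).card := by
        rw [e1]
        exact card_le_card (hnbsub _)
      unfold c at hv ⊢
      rw [e1] at s1 ⊢
      omega
  have hle := hmin R' hr' has' hce'
  have hlt : np R' < np R := by
    unfold np
    apply card_lt_card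
    rw [Finset.ssubset_iff_subset_ne]
    constructor
    · intro p hp
      rw [mem_filter] at hp ⊢
      exact ⟨hp.1, hsub _ _ hp.2⟩
    · intro heq
      obtain ⟨y, hy⟩ : (L \ T).Nonempty := by
        rw [sdiff_nonempty]
        exact hT.not_subset
      have hyL : y ∈ nb R X := by
        rw [hXL]
        exact mem_union_right _ (mem_sdiff.1 hy).1
      obtain ⟨x, hx, hxy⟩ := mem_nb.1 hyL
      have h1 : (x, y) ∈ univ.filter (fun p : V × V => R p.1 p.2) := by
        rw [mem_filter]
        exact ⟨mem_univ _, hxy⟩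
      rw [← heq, mem_filter, hR'] at h1
      exact h1.2.2 ⟨hx, hy⟩
  omega

end Vale.Agent.P038.H420
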