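import Vale.Agent.P038.H420.Opt

/-!
# The key lemma: the optimal outer pair is sent to an inner pair of at most the same cost
-/

namespace Vale.Agent.P038.H420

open Finset

variable {V : Type*} [Fintype V] [DecidableEq V]

/-- The outer pairs: two families of sets containing the closed out-neighbourhoods, orthogonal. -/
def Outer (R : V → V → Prop) (B C : V → Finset V) : Prop :=
  (∀ a, nb R {a} ⊆ B a) ∧ (∀ a, nb R {a} ⊆ C a) ∧ ∀ a x, x ∈ B a → a ∈ C x → a = x

/-- The cost of a pair of families. -/
noncomputable def cost (R : V → V → Prop) (B C : V → Finset V) : ℤ :=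
  ∑ a, c R (B a) + ∑ a, c R (C a)

theorem exists_min_outer (R : V → V → Prop) (has : ∀ a b, R a b → R b a → a = b) :
    ∃ B C, Outer R B C ∧ ∀ B' C', Outer R B' C' → cost R B C ≤ cost R B' C' := by
  classical
  obtain ⟨p, hp, hmin⟩ := Finset.exists_min_image
    (univ.filter (fun p : (V → Finset V) × (V → Finset V) => Outer R p.1 p.2))
    (fun p => cost R p.1 p.2)
    ⟨(fun a => nb R {a}, fun a => nb R {a}), by
      rw [mem_filter]
      exact ⟨mem_univ _, fun a => subset_rfl, fun a => subset_rfl, fun a x hx ha =>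
        has a x (mem_nb_single.1 hx) (mem_nb_single.1 ha)⟩⟩
  rw [mem_filter] at hp
  exact ⟨p.1, p.2, hp.2, fun B' C' h => hmin (B', C') (by
    rw [mem_filter]
    exact ⟨mem_univ _, h⟩)⟩

theorem sum_update (f : Finset V → ℤ) (B : V → Finset V) (a : V) (T : Finset V) :
    ∑ x, f (Function.update B a T x) = ∑ x, f (B x) - f (B a) + f T := by
  have h1 : ∑ x ∈ univ.erase a, f (Function.update B a T x) = ∑ x ∈ univ.erase a, f (B x) :=
    sum_congr rfl (fun x hx => by rw [Function.update_of_ne (ne_of_mem_erase hx)])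
  rw [← Finset.add_sum_erase univ (fun x => f (Function.update B a T x)) (mem_univ a),
    ← Finset.add_sum_erase univ (fun x => f (B x)) (mem_univ a), h1, Function.update_self]
  ring

open Classical in
/-- The largest first family allowed by `C`. -/
noncomputable def Bh (C : V → Finset V) (a : V) : Finset V :=
  univ.filter (fun x => x = a ∨ a ∉ C x)

open Classical in
/-- The intersection of `Bh` over the closed in-neighbourhood. -/
noncomputable def Xh (R : V → V → Prop) (C : V → Finset V) (a : V) : Finset V :=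
  univ.filter (fun x => ∀ a', R a' a → x ∈ Bh C a')

open Classical in
/-- The intersection of `C` over the closed in-neighbourhood. -/
noncomputable def Yh (R : V → V → Prop) (C : V → Finset V) (y : V) : Finset V :=
  univ.filter (fun z => ∀ y', R y' y → z ∈ C y')

theorem mem_Bh {C : V → Finset V} {a x : V} : x ∈ Bh C a ↔ x = a ∨ a ∉ C x := by
  simp [Bh]

theorem mem_Xh {R : V → V → Prop} {C : V → Finset V} {a x : V} :
    x ∈ Xh R C a ↔ ∀ a', R a' a → x ∈ Bh C a' := by
  simp [Xh]

theorem mem_Yh {R : V → V → Prop} {C : V → Finset V} {y z : V} :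
    z ∈ Yh R C y ↔ ∀ y', R y' y → z ∈ C y' := by
  simp [Yh]

section pair

variable {R : V → V → Prop} {B C : V → Finset V}

theorem B_sub_Bh (h : Outer R B C) (a : V) : B a ⊆ Bh C a := by
  intro x hx
  rw [mem_Bh]
  by_contra hc
  push Not at hc
  exact hc.1 (h.2.2 a x hx hc.2).symm

omit [DecidableEq V] in
theorem mem_B_self (h : Outer R B C) {a' a : V} (haa : R a' a) : a ∈ B a' :=
  h.1 a' (mem_nb_single.2 haa)

omit [DecidableEq V] in
theorem mem_C_self (h : Outer R B C) {a' a : V} (haa : R a' a) : a ∈ C a' :=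
  h.2.1 a' (mem_nb_single.2 haa)

theorem self_mem_Xh (hr : ∀ a, R a a) (h : Outer R B C) (a : V) : a ∈ Xh R C a := by
  rw [mem_Xh]
  intro a' h'
  exact B_sub_Bh h a' (mem_B_self h h')

theorem self_mem_Yh (hr : ∀ a, R a a) (h : Outer R B C) (a : V) : a ∈ Yh R C a := by
  rw [mem_Yh]
  intro a' h'
  exact mem_C_self h h'

/-- Feasibility of the shifted pair. -/
theorem feasible (hr : ∀ a, R a a) (h : Outer R B C) {a y : V}
    (h1 : y ∈ nb R (Xh R C a)) (h2 : a ∈ nb R (Yh R C y)) : a = y := by
  obtain ⟨x, hx, hxy⟩ := mem_nb.1 h1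
  obtain ⟨z, hz, hza⟩ := mem_nb.1 h2
  have hx' := mem_Xh.1 hx
  have hz' := mem_Yh.1 hz
  have hzx : z ∈ C x := hz' x hxy
  have e1 : x = z := by
    rcases mem_Bh.1 (hx' z hza) with e | e
    · exact e
    · exact absurd hzx e
  subst e1
  have haC : a ∈ C x := mem_C_self h hza
  have e2 : x = a := by
    rcases mem_Bh.1 (hx' a (hr a)) with e | e
    · exact e
    · exact absurd haC e
  subst e2
  exact h.2.2 x y (mem_B_self h hxy) (hz' y (hr y))

theorem card_eq_ind (F : Finset V) : (F.card : ℤ) = ∑ y, if y ∈ F then (1 : ℤ) else 0 := by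
  rw [Finset.sum_boole]
  congr 2
  ext y
  simp

/-- The unshifted comparison (Lemma 1). -/
theorem lemma1 (hr : ∀ a, R a a) (h : Outer R B C) :
    ∑ a, c R (Xh R C a) + ∑ y, c R (Yh R C y) ≤ ∑ a, c R (Bh C a) + ∑ y, c R (C y) := by
  have e : ∀ F : V → Finset V, ∑ a, c R (F a)
      = ∑ a, ∑ y, if y ∈ nb R (F a) \ F a then (1 : ℤ) else 0 := by
    intro F
    refine sum_congr rfl (fun a _ => ?_)
    rw [c_eq_card hr, card_eq_ind]
  have e' : ∀ F : V → Finset V, ∑ a, c R (F a)
      = ∑ a, ∑ y, if a ∈ nb R (F y) \ F y then (1 : ℤ) else 0 := by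
    intro F
    rw [e F, sum_comm]
  rw [e (Xh R C), e' (Yh R C), e (Bh C), e' C, ← sum_add_distrib, ← sum_add_distrib]
  refine sum_le_sum (fun a _ => ?_)
  rw [← sum_add_distrib, ← sum_add_distrib]
  refine sum_le_sum (fun y _ => ?_)
  -- the two conditions on the left exclude each other
  have k0 : y ∈ nb R (Xh R C a) \ Xh R C a → a ∈ nb R (Yh R C y) \ Yh R C y → False := by
    intro h1 h2
    rw [mem_sdiff] at h1 h2
    have := feasible hr h h1.1 h2.1
    subst this
    exact h1.2 (self_mem_Xh hr h a)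
  have hXB : Xh R C a ⊆ Bh C a := fun x hx => mem_Xh.1 hx a (hr a)
  have hYC : Yh R C y ⊆ C y := fun x hx => mem_Yh.1 hx y (hr y)
  have k1 : y ∈ nb R (Xh R C a) \ Xh R C a →
      (y ∈ nb R (Bh C a) \ Bh C a ∨ a ∈ nb R (C y) \ C y) := by
    intro h1
    rw [mem_sdiff] at h1
    have h2 : ¬ ∀ a', R a' a → y ∈ Bh C a' := fun hc => h1.2 (mem_Xh.2 hc)
    push Not at h2
    obtain ⟨a', ha', hy⟩ := h2
    rw [mem_Bh] at hy
    push Not at hy
    have h3 : a ∈ nb R (C y) := mem_nb.2 ⟨a', hy.2, ha'⟩
    by_cases haC : a ∈ C y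
    · left
      rw [mem_sdiff]
      refine ⟨nb_mono hXB h1.1, ?_⟩
      rw [mem_Bh]
      rintro (rfl | hc)
      · exact h1.2 (self_mem_Xh hr h y)
      · exact hc haC
    · right
      exact mem_sdiff.2 ⟨h3, haC⟩
  have k2 : a ∈ nb R (Yh R C y) \ Yh R C y →
      (y ∈ nb R (Bh C a) \ Bh C a ∨ a ∈ nb R (C y) \ C y) := by
    intro h1
    rw [mem_sdiff] at h1
    have h2 : ¬ ∀ y', R y' y → a ∈ C y' := fun hc => h1.2 (mem_Yh.2 hc)
    push Not at h2
    obtain ⟨y', hy', ha⟩ := h2
    have h3 : y ∈ nb R (Bh C a) := mem_nb.2 ⟨y', mem_Bh.2 (Or.inr ha), hy'⟩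
    by_cases hyB : y ∈ Bh C a
    · right
      rw [mem_sdiff]
      refine ⟨nb_mono hYC h1.1, ?_⟩
      rcases mem_Bh.1 hyB with rfl | hc
      · exact absurd (self_mem_Yh hr h y) h1.2
      · exact hc
    · left
      exact mem_sdiff.2 ⟨h3, hyB⟩
  by_cases p1 : y ∈ nb R (Xh R C a) \ Xh R C a
  · have p2 : ¬ (a ∈ nb R (Yh R C y) \ Yh R C y) := fun hc => k0 p1 hc
    rw [if_pos p1, if_neg p2]
    rcases k1 p1 with q | q
    · rw [if_pos q]
      split_ifs <;> norm_num
    · rw [if_pos q]
      split_ifs <;> norm_num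
  · by_cases p2 : a ∈ nb R (Yh R C y) \ Yh R C y
    · rw [if_neg p1, if_pos p2]
      rcases k2 p2 with q | q
      · rw [if_pos q]
        split_ifs <;> norm_num
      · rw [if_pos q]
        split_ifs <;> norm_num
    · rw [if_neg p1, if_neg p2]
      split_ifs <;> norm_num

/-- Hall's condition in a column, from the optimality of the second family. -/
theorem column_inj (hr : ∀ a, R a a) (h : Outer R B C)
    (hmin : ∀ B' C', Outer R B' C' → cost R B C ≤ cost R B' C') (y : V) :
    ∃ i : {a // y ∈ Bh C a \ B a} → V, Function.Injective i ∧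
      ∀ a : {a // y ∈ Bh C a \ B a}, R a.1 (i a) ∧ y ∈ Xh R C (i a) := by
  classical
  have key : ∀ K : Finset V, (∀ a ∈ K, y ∈ Bh C a \ B a) →
      K.card ≤ (nb R K \ nb R (C y)).card := by
    intro K hK
    have hKC : Disjoint (C y) K := by
      rw [disjoint_right]
      intro a ha haC
      have h1 := hK a ha
      rw [mem_sdiff, mem_Bh] at h1
      rcases h1.1 with e | e
      · subst e
        exact h1.2 (mem_B_self h (hr y))
      · exact e haC
    have hout : Outer R B (Function.update C y (C y ∪ K)) := by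
      refine ⟨h.1, ?_, ?_⟩
      · intro a
        by_cases e : a = y
        · subst e
          rw [Function.update_self]
          exact (h.2.1 a).trans subset_union_left
        · rw [Function.update_of_ne e]
          exact h.2.1 a
      · intro a x hx ha
        by_cases e : x = y
        · subst e
          rw [Function.update_self, mem_union] at ha
          rcases ha with ha | ha
          · exact h.2.2 a x hx ha
          · exact absurd hx (mem_sdiff.1 (hK a ha)).2
        · rw [Function.update_of_ne e] at ha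
          exact h.2.2 a x hx ha
    have h1 := hmin _ _ hout
    unfold cost at h1
    rw [sum_update] at h1
    have h2 : c R (C y) ≤ c R (C y ∪ K) := by linarith
    unfold c at h2
    have h3 : (C y ∪ K).card = (C y).card + K.card := card_union_of_disjoint hKC
    have h4 : (nb R (C y ∪ K)).card = (nb R (C y)).card + (nb R K \ nb R (C y)).card := by
      rw [nb_union, ← union_sdiff_self_eq_union, card_union_of_disjoint disjoint_sdiff]
    omega
  have hall := (Finset.all_card_le_biUnion_card_iff_exists_injective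
    (fun a : {a // y ∈ Bh C a \ B a} =>
      (univ.filter (fun b => R a.1 b ∧ y ∈ Xh R C b) : Finset V))).1
  obtain ⟨i, hi, hi'⟩ := hall (by
    intro s
    have h1 := key (s.map (Function.Embedding.subtype _)) (by
      intro a ha
      rw [mem_map] at ha
      obtain ⟨b, -, rfl⟩ := ha
      exact b.2)
    rw [card_map] at h1
    refine h1.trans (card_le_card ?_)
    intro b hb
    rw [mem_sdiff] at hb
    obtain ⟨a, ha, hab⟩ := mem_nb.1 hb.1
    rw [mem_map] at ha
    obtain ⟨a0, ha0, rfl⟩ := ha
    rw [mem_biUnion]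
    refine ⟨a0, ha0, ?_⟩
    rw [mem_filter]
    refine ⟨mem_univ _, hab, ?_⟩
    rw [mem_Xh]
    intro a' ha'
    rw [mem_Bh]
    right
    intro hc
    exact hb.2 (mem_nb.2 ⟨a', hc, ha'⟩))
  refine ⟨i, hi, fun a => ?_⟩
  have := hi' a
  rw [mem_filter] at this
  exact this.2

/-- The key lemma (3). -/
theorem key3 (hr : ∀ a, R a a) (h : Outer R B C)
    (hmin : ∀ B' C', Outer R B' C' → cost R B C ≤ cost R B' C') (S : Finset V) :
    ∑ a, (mn R (B a) (Bh C a) S - mn R (B a) (Bh C a) ∅)
      ≤ ∑ a, (mn R {a} (Xh R C a) S - mn R {a} (Xh R C a) ∅) := by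
  classical
  have hs : ∀ a, ({a} : Finset V) ⊆ Xh R C a := fun a => singleton_subset_iff.2
    (self_mem_Xh hr h a)
  induction S using Finset.induction_on with
  | empty => simp
  | insert y S hy ih =>
    have step : ∑ a, (mn R (B a) (Bh C a) (insert y S) - mn R (B a) (Bh C a) S)
        ≤ ∑ a, (mn R {a} (Xh R C a) (insert y S) - mn R {a} (Xh R C a) S) := by
      obtain ⟨i, hi, hi'⟩ := column_inj hr h hmin y
      have h1 : ∑ a, (mn R (B a) (Bh C a) (insert y S) - mn R (B a) (Bh C a) S)
          = ∑ a ∈ univ.filter (fun a => y ∈ Bh C a \ B a),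
            (mn R (B a) (Bh C a) (insert y S) - mn R (B a) (Bh C a) S) := by
        symm
        apply Finset.sum_subset (subset_univ _)
        intro a _ ha
        have ha' : y ∉ Bh C a \ B a := fun hc => ha (mem_filter.2 ⟨mem_univ _, hc⟩)
        rw [mn_insert_of_not R (B_sub_Bh h a) ha', sub_self]
      have h2 : ∑ a ∈ univ.filter (fun a => y ∈ Bh C a \ B a),
            (mn R (B a) (Bh C a) (insert y S) - mn R (B a) (Bh C a) S)
          = ∑ a : {a // y ∈ Bh C a \ B a},
            (mn R (B a.1) (Bh C a.1) (insert y S) - mn R (B a.1) (Bh C a.1) S) := by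
        apply Finset.sum_subtype
        intro a
        simp
      have h3 : ∑ a : {a // y ∈ Bh C a \ B a},
            (mn R (B a.1) (Bh C a.1) (insert y S) - mn R (B a.1) (Bh C a.1) S)
          ≤ ∑ a : {a // y ∈ Bh C a \ B a},
            (mn R {i a} (Xh R C (i a)) (insert y S) - mn R {i a} (Xh R C (i a)) S) := by
        apply Finset.sum_le_sum
        intro a _
        have hm := marg R (S := S) (B_sub_Bh h a.1) (hs (i a))
          (fun x hx => mem_Xh.1 hx a.1 (hi' a).1)
          (singleton_subset_iff.2 (mem_B_self h (hi' a).1)) (hi' a).2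
        linarith
      have h4 : ∑ a : {a // y ∈ Bh C a \ B a},
            (mn R {i a} (Xh R C (i a)) (insert y S) - mn R {i a} (Xh R C (i a)) S)
          = ∑ b ∈ univ.image i, (mn R {b} (Xh R C b) (insert y S) - mn R {b} (Xh R C b) S) := by
        rw [Finset.sum_image (fun a _ b _ hab => hi hab)]
      have h5 : ∑ b ∈ univ.image i, (mn R {b} (Xh R C b) (insert y S) - mn R {b} (Xh R C b) S)
          ≤ ∑ b, (mn R {b} (Xh R C b) (insert y S) - mn R {b} (Xh R C b) S) := by
        apply Finset.sum_le_sum_of_subset_of_nonneg (subset_univ _)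
        intro b _ _
        have := mn_mono R (hs b) (subset_insert y S)
        linarith
      rw [h1, h2]
      exact h3.trans (h4.le.trans h5)
    simp only [Finset.sum_sub_distrib] at ih step ⊢
    linarith

/-- The inner pair has cost at most the optimal outer cost. -/
theorem inner_le (hr : ∀ a, R a a) (h : Outer R B C)
    (hmin : ∀ B' C', Outer R B' C' → cost R B C ≤ cost R B' C') :
    ∑ a, c R (opt R {a} (Xh R C a) ∅) + ∑ a, c R (Yh R C a) ≤ cost R B C := by
  have h1 := key3 hr h hmin univ
  have h2 := lemma1 hr h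
  have hs : ∀ a, ({a} : Finset V) ⊆ Xh R C a := fun a => singleton_subset_iff.2
    (self_mem_Xh hr h a)
  have h3 : ∀ a, mn R {a} (Xh R C a) univ = c R (Xh R C a) := fun a => mn_univ R (hs a)
  have h4 : ∀ a, mn R (B a) (Bh C a) univ = c R (Bh C a) := fun a => mn_univ R (B_sub_Bh h a)
  have h5 : ∑ a, mn R (B a) (Bh C a) ∅ ≤ ∑ a, c R (B a) := by
    apply Finset.sum_le_sum
    intro a _
    exact mn_le R (B_sub_Bh h a) subset_rfl (B_sub_Bh h a) (by simp)
  simp only [Finset.sum_sub_distrib, h3, h4] at h1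
  have h6 : ∑ a, c R (opt R {a} (Xh R C a) ∅) = ∑ a, mn R {a} (Xh R C a) ∅ := rfl
  unfold cost
  rw [h6]
  linarith

end pair

end Vale.Agent.P038.H420
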