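import Vale.Agent.P038.H420.Base

/-!
# The constrained minima of the submodular function `c`
-/

namespace Vale.Agent.P038.H420

open Finset

variable {V : Type*} [Fintype V] [DecidableEq V]

theorem exists_opt (R : V → V → Prop) (L U S : Finset V) (h : L ⊆ U) :
    ∃ T, (L ⊆ T ∧ T ⊆ U ∧ U ∩ S ⊆ T) ∧
      ∀ T', (L ⊆ T' ∧ T' ⊆ U ∧ U ∩ S ⊆ T') → c R T ≤ c R T' := by
  classical
  obtain ⟨T, hT, hmin⟩ := Finset.exists_min_image
    (univ.filter (fun T : Finset V => L ⊆ T ∧ T ⊆ U ∧ U ∩ S ⊆ T)) (c R)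
    ⟨U, by rw [mem_filter]; exact ⟨mem_univ _, h, subset_rfl, inter_subset_left⟩⟩
  rw [mem_filter] at hT
  exact ⟨T, hT.2, fun T' hT' => hmin T' (by rw [mem_filter]; exact ⟨mem_univ _, hT'⟩)⟩

open Classical in
/-- A minimiser of `c` over the sets `T` with `L ⊆ T ⊆ U` and `U ∩ S ⊆ T`. -/
noncomputable def opt (R : V → V → Prop) (L U S : Finset V) : Finset V :=
  if h : L ⊆ U then Classical.choose (exists_opt R L U S h) else ∅

theorem opt_spec (R : V → V → Prop) {L U : Finset V} (S : Finset V) (h : L ⊆ U) :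
    (L ⊆ opt R L U S ∧ opt R L U S ⊆ U ∧ U ∩ S ⊆ opt R L U S) ∧
      ∀ T', (L ⊆ T' ∧ T' ⊆ U ∧ U ∩ S ⊆ T') → c R (opt R L U S) ≤ c R T' := by
  unfold opt
  rw [dif_pos h]
  exact Classical.choose_spec (exists_opt R L U S h)

/-- The minimum. -/
noncomputable def mn (R : V → V → Prop) (L U S : Finset V) : ℤ := c R (opt R L U S)

theorem mn_le (R : V → V → Prop) {L U S T : Finset V} (h : L ⊆ U) (h1 : L ⊆ T) (h2 : T ⊆ U)
    (h3 : U ∩ S ⊆ T) : mn R L U S ≤ c R T := (opt_spec R S h).2 T ⟨h1, h2, h3⟩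

theorem mn_mono (R : V → V → Prop) {L U S S' : Finset V} (h : L ⊆ U) (hS : S ⊆ S') :
    mn R L U S ≤ mn R L U S' := by
  obtain ⟨⟨h1, h2, h3⟩, -⟩ := opt_spec R S' h
  exact mn_le R h h1 h2 ((inter_subset_inter_left hS).trans h3)

theorem mn_univ (R : V → V → Prop) {L U : Finset V} (h : L ⊆ U) :
    mn R L U univ = c R U := by
  obtain ⟨⟨h1, h2, h3⟩, -⟩ := opt_spec R univ h
  rw [inter_univ] at h3
  unfold mn
  rw [Subset.antisymm h2 h3]

/-- Adding an element which is not in `U`, or is in `L`, changes nothing. -/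
theorem mn_insert_of_not (R : V → V → Prop) {L U S : Finset V} {y : V} (h : L ⊆ U)
    (hy : y ∉ U \ L) : mn R L U (insert y S) = mn R L U S := by
  apply le_antisymm _ (mn_mono R h (subset_insert y S))
  obtain ⟨⟨h1, h2, h3⟩, -⟩ := opt_spec R S h
  refine mn_le R h h1 h2 ?_
  intro z hz
  rw [mem_inter, mem_insert] at hz
  rcases hz.2 with rfl | hzS
  · apply h1
    by_contra hc
    exact hy (mem_sdiff.2 ⟨hz.1, hc⟩)
  · exact h3 (mem_inter.2 ⟨hz.1, hzS⟩)

/-- The marginal inequality. -/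
theorem marg (R : V → V → Prop) {L U L' U' S : Finset V} {y : V} (h : L ⊆ U) (h' : L' ⊆ U')
    (hU : U' ⊆ U) (hL : L' ⊆ L) (hy : y ∈ U') :
    mn R L' U' S + mn R L U (insert y S) ≤ mn R L' U' (insert y S) + mn R L U S := by
  obtain ⟨⟨a1, a2, a3⟩, -⟩ := opt_spec R (insert y S) h'
  obtain ⟨⟨b1, b2, b3⟩, -⟩ := opt_spec R S h
  have hsm := c_submod (R := R) (opt R L' U' (insert y S)) (opt R L U S)
  have k1 : mn R L U (insert y S) ≤ c R (opt R L' U' (insert y S) ∪ opt R L U S) := by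
    refine mn_le R h (b1.trans subset_union_right) (union_subset (a2.trans hU) b2) ?_
    intro z hz
    rw [mem_inter, mem_insert] at hz
    rw [mem_union]
    rcases hz.2 with rfl | hzS
    · exact Or.inl (a3 (mem_inter.2 ⟨hy, mem_insert_self _ _⟩))
    · exact Or.inr (b3 (mem_inter.2 ⟨hz.1, hzS⟩))
  have k2 : mn R L' U' S ≤ c R (opt R L' U' (insert y S) ∩ opt R L U S) := by
    refine mn_le R h' (subset_inter a1 (hL.trans b1)) (inter_subset_left.trans a2) ?_
    intro z hz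
    rw [mem_inter] at hz
    rw [mem_inter]
    exact ⟨a3 (mem_inter.2 ⟨hz.1, mem_insert_of_mem hz.2⟩),
      b3 (mem_inter.2 ⟨hU hz.1, hz.2⟩)⟩
  unfold mn at *
  omega

end Vale.Agent.P038.H420
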