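import Vale.Agent.P038.H420.Key

/-!
# Seymour's second neighbourhood conjecture
-/

namespace Vale.Agent.P038.H420

open Finset

variable {V : Type*} [Fintype V] [DecidableEq V]

/-- No counterexample with fewest arcs. -/
theorem no_min [Nonempty V] {R : V → V → Prop} (hr : ∀ a, R a a)
    (has : ∀ a b, R a b → R b a → a = b)
    (hce : ∀ v, c R (nb R {v}) < c R {v})
    (hmin : ∀ R' : V → V → Prop, (∀ a, R' a a) → (∀ a b, R' a b → R' b a → a = b) →
      (∀ v, c R' (nb R' {v}) < c R' {v}) → np R ≤ np R') : False := by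
  classical
  obtain ⟨B, C, hout, hopt⟩ := exists_min_outer R has
  have hs : ∀ a, ({a} : Finset V) ⊆ Xh R C a := fun a => singleton_subset_iff.2
    (self_mem_Xh hr hout a)
  obtain ⟨X, hX⟩ : ∃ X : V → Finset V, X = fun a => opt R {a} (Xh R C a) ∅ := ⟨_, rfl⟩
  obtain ⟨Y, hY⟩ : ∃ Y : V → Finset V, Y = fun a => Yh R C a := ⟨_, rfl⟩
  have hXs : ∀ a, a ∈ X a := by
    intro a
    rw [hX]
    exact (opt_spec R ∅ (hs a)).1.1 (mem_singleton_self a)
  have hXX : ∀ a, X a ⊆ Xh R C a := by
    intro a
    rw [hX]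
    exact (opt_spec R ∅ (hs a)).1.2.1
  have hYs : ∀ a, a ∈ Y a := by
    intro a
    rw [hY]
    exact self_mem_Yh hr hout a
  have hin : ∑ a, c R (X a) + ∑ a, c R (Y a) ≤ cost R B C := by
    rw [hX, hY]
    exact inner_le hr hout hopt
  have horth : ∀ a x, x ∈ nb R (X a) → a ∈ nb R (Y x) → a = x := by
    intro a x hx ha
    rw [hY] at ha
    exact feasible hr hout (nb_mono (hXX a) hx) ha
  have hout' : Outer R (fun a => nb R (X a)) (fun a => nb R (Y a)) :=
    ⟨fun a => nb_mono (singleton_subset_iff.2 (hXs a)),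
      fun a => nb_mono (singleton_subset_iff.2 (hYs a)), horth⟩
  have hle := hopt _ _ hout'
  have hG : ∀ S, c R (nb R S) ≤ c R S := by
    intro S
    by_cases e : nb R S = S
    · rw [e]
    · exact (strictG hr has hce hmin S e).le
  have hYle : ∑ a, c R (nb R (Y a)) ≤ ∑ a, c R (Y a) := sum_le_sum (fun a _ => hG (Y a))
  have hclosed : ∀ a, nb R (X a) = X a := by
    by_contra hc
    push Not at hc
    obtain ⟨a0, ha0⟩ := hc
    have hXlt : ∑ a, c R (nb R (X a)) < ∑ a, c R (X a) :=
      sum_lt_sum (fun a _ => hG (X a)) ⟨a0, mem_univ _, strictG hr has hce hmin _ ha0⟩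
    unfold cost at hle hin
    linarith
  -- a smallest nonempty closed set
  obtain ⟨W, hW, hWmin⟩ := Finset.exists_min_image
    (univ.filter (fun W : Finset V => W.Nonempty ∧ nb R W = W)) (fun W => W.card)
    ⟨univ, by
      rw [mem_filter]
      exact ⟨mem_univ _, univ_nonempty, Subset.antisymm (subset_univ _) (subset_nb hr _)⟩⟩
  rw [mem_filter] at hW
  obtain ⟨-, ⟨a, haW⟩, hWc⟩ := hW
  have hout1 : ∃ b, R a b ∧ b ≠ a := by
    by_contra hc
    push Not at hc
    have e : nb R {a} = {a} := by
      ext b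
      rw [mem_nb_single, mem_singleton]
      exact ⟨hc b, fun h => h ▸ hr b⟩
    have := hce a
    rw [e] at this
    exact lt_irrefl _ this
  obtain ⟨b, hab, hba⟩ := hout1
  have hbW : b ∈ W := by
    rw [← hWc]
    exact mem_nb.2 ⟨a, haW, hab⟩
  have hI : W ∩ X b ∈ univ.filter (fun W : Finset V => W.Nonempty ∧ nb R W = W) := by
    rw [mem_filter]
    refine ⟨mem_univ _, ⟨b, mem_inter.2 ⟨hbW, hXs b⟩⟩, Subset.antisymm ?_ (subset_nb hr _)⟩
    intro y hy
    rw [mem_inter]
    constructor
    · rw [← hWc]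
      exact nb_mono inter_subset_left hy
    · rw [← hclosed b]
      exact nb_mono inter_subset_right hy
  have hcard := hWmin _ hI
  have heq : W ∩ X b = W := eq_of_subset_of_card_le inter_subset_left hcard
  have haX : a ∈ X b := by
    rw [← heq] at haW
    exact (mem_inter.1 haW).2
  have h1 : a ∈ nb R (X b) := subset_nb hr _ haX
  have h2 : b ∈ nb R (Y a) := mem_nb.2 ⟨a, hYs a, hab⟩
  exact hba (horth b a h1 h2)

/-- Seymour's conjecture, for the reflexive relation of an oriented graph. -/
theorem snc_refl [Nonempty V] (R : V → V → Prop) (hr : ∀ a, R a a)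
    (has : ∀ a b, R a b → R b a → a = b) : ∃ v, c R {v} ≤ c R (nb R {v}) := by
  by_contra hc
  push Not at hc
  have key : ∀ n : ℕ, ∀ R : V → V → Prop, np R = n → (∀ a, R a a) →
      (∀ a b, R a b → R b a → a = b) → (∀ v, c R (nb R {v}) < c R {v}) → False := by
    intro n
    induction n using Nat.strong_induction_on with
    | _ n ih =>
      intro R hn hr has hce
      refine no_min hr has hce ?_
      intro R' hr' has' hce'
      by_contra hlt
      push Not at hlt
      exact ih (np R') (by omega) R' rfl hr' has' hce'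
  exact key _ R rfl hr has hc

end Vale.Agent.P038.H420

namespace Vale.Agent.P038.H420

open Finset

open Classical in
/-- **Seymour's second neighbourhood conjecture.** Every nonempty finite oriented graph has a
vertex whose second out-neighbourhood is at least as large as its out-neighbourhood. -/
theorem snc {V : Type*} [Fintype V] [Nonempty V] (arc : V → V → Prop)
    (loopless : ∀ v, ¬ arc v v) (asymm : ∀ u v, arc u v → ¬ arc v u) :
    ∃ v, (univ.filter (fun u => arc v u)).card
      ≤ (univ.filter (fun x => x ≠ v ∧ ¬ arc v x ∧ ∃ u, arc v u ∧ arc u x)).card := by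
  obtain ⟨R, hR⟩ : ∃ R : V → V → Prop, R = fun a b => a = b ∨ arc a b := ⟨_, rfl⟩
  have hr : ∀ a, R a a := fun a => by rw [hR]; exact Or.inl rfl
  have has : ∀ a b, R a b → R b a → a = b := by
    intro a b h h'
    rw [hR] at h h'
    rcases h with h | h
    · exact h
    · rcases h' with h' | h'
      · exact h'.symm
      · exact absurd h' (asymm a b h)
  obtain ⟨v, hv⟩ := snc_refl R hr has
  refine ⟨v, ?_⟩
  have e1 : nb R {v} = insert v (univ.filter (fun u => arc v u)) := by
    ext y
    rw [mem_nb_single, hR, mem_insert, mem_filter]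
    constructor
    · rintro (h | h)
      · exact Or.inl h.symm
      · exact Or.inr ⟨mem_univ _, h⟩
    · rintro (h | h)
      · exact Or.inl h.symm
      · exact Or.inr h.2
  have c1 : (nb R {v}).card = (univ.filter (fun u => arc v u)).card + 1 := by
    rw [e1, card_insert_of_notMem]
    rw [mem_filter]
    exact fun h => loopless v h.2
  have e2 : nb R (nb R {v}) \ nb R {v}
      = univ.filter (fun x => x ≠ v ∧ ¬ arc v x ∧ ∃ u, arc v u ∧ arc u x) := by
    ext y
    rw [mem_sdiff, mem_filter, mem_nb_single]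
    constructor
    · rintro ⟨h1, h2⟩
      obtain ⟨x, hx, hxy⟩ := mem_nb.1 h1
      have hx' := mem_nb_single.1 hx
      rw [hR] at hx' hxy h2
      refine ⟨mem_univ _, fun h => h2 (Or.inl h.symm), fun h => h2 (Or.inr h), ?_⟩
      rcases hx' with rfl | hx'
      · exact absurd hxy h2
      · rcases hxy with rfl | hxy
        · exact absurd (Or.inr hx') h2
        · exact ⟨x, hx', hxy⟩
    · rintro ⟨-, h1, h2, u, h3, h4⟩
      refine ⟨mem_nb.2 ⟨u, mem_nb_single.2 ?_, ?_⟩, ?_⟩
      · rw [hR]; exact Or.inr h3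
      · rw [hR]; exact Or.inr h4
      · rw [hR]
        rintro (h | h)
        · exact h1 h.symm
        · exact h2 h
  have c2 : c R (nb R {v})
      = ((univ.filter (fun x => x ≠ v ∧ ¬ arc v x ∧ ∃ u, arc v u ∧ arc u x)).card : ℤ) := by
    rw [c_eq_card hr, e2]
  rw [c2] at hv
  unfold c at hv
  rw [c1, card_singleton] at hv
  push_cast at hv
  omega

end Vale.Agent.P038.H420
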